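import Mathlib.Analysis.SpecialFunctions.Exponential
import Mathlib.Analysis.SpecialFunctions.Log.Deriv
import Mathlib.Analysis.Calculus.SmoothSeries
import Mathlib.Analysis.Calculus.MeanValue
import Mathlib.Analysis.SpecificLimits.Normed
import Mathlib.Tactic

/-!
# Exponential and logarithm in a commutative real Banach algebra
-/

namespace Vale.Agent.P144Z.KP

open NormedSpace Finset Filter Topology

noncomputable section

variable {A : Type*} [NormedCommRing A] [NormedAlgebra ℝ A] [CompleteSpace A]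

theorem exp_add' (x y : A) : exp (x + y) = exp x * exp y :=
  exp_add_of_mem_ball (𝕂 := ℝ) ((expSeries_radius_eq_top ℝ A).symm ▸ edist_lt_top _ _)
    ((expSeries_radius_eq_top ℝ A).symm ▸ edist_lt_top _ _)

theorem exp_mul_exp_neg (x : A) : exp x * exp (-x) = 1 := by
  rw [← exp_add', add_neg_cancel, exp_zero]

theorem exp_sub_mul (x y : A) : exp (x - y) * exp y = exp x := by
  rw [← exp_add', sub_add_cancel]

theorem exp_sum' {ι : Type*} (s : Finset ι) (f : ι → A) :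
    exp (∑ i ∈ s, f i) = ∏ i ∈ s, exp (f i) := by
  classical
  induction s using Finset.induction_on with
  | empty => simp
  | insert i s hi ih => rw [sum_insert hi, prod_insert hi, exp_add', ih]

theorem isUnit_exp' (x : A) : IsUnit (exp x) :=
  IsUnit.of_mul_eq_one _ (exp_mul_exp_neg x)

theorem continuous_exp' : Continuous (exp : A → A) :=
  continuous_iff_continuousAt.2 fun x => (hasFDerivAt_exp (𝕂 := ℝ) (x := x)).continuousAt

theorem map_exp' {B : Type*} [NormedCommRing B] [NormedAlgebra ℝ B] {F : Type*} [FunLike F A B]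
    [RingHomClass F A B] (f : F) (hf : Continuous f) (x : A) : f (exp x) = exp (f x) :=
  map_exp_of_mem_ball (𝕂 := ℝ) f hf x ((expSeries_radius_eq_top ℝ A).symm ▸ edist_lt_top _ _)

theorem hasSum_exp (x : A) : HasSum (fun n : ℕ => ((n.factorial : ℝ)⁻¹) • x ^ n) (exp x) :=
  exp_series_hasSum_exp' (𝕂 := ℝ) x

theorem hasSum_rexp (r : ℝ) : HasSum (fun n : ℕ => ((n.factorial : ℝ)⁻¹) * r ^ n) (Real.exp r) := by
  have h := hasSum_exp (A := ℝ) r
  rw [← Real.exp_eq_exp_ℝ] at h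
  simpa using h

/-- The tail of the exponential series is bounded by the tail of the real series. -/
theorem norm_exp_sub_sum_le (x : A) (k : ℕ) (hk : 0 < k) :
    ‖exp x - ∑ n ∈ range k, ((n.factorial : ℝ)⁻¹) • x ^ n‖
      ≤ Real.exp ‖x‖ - ∑ n ∈ range k, ((n.factorial : ℝ)⁻¹) * ‖x‖ ^ n := by
  have h1 := (hasSum_nat_add_iff' k).2 (hasSum_exp x)
  have h2 := (hasSum_nat_add_iff' k).2 (hasSum_rexp ‖x‖)
  refine h1.norm_le_of_bounded h2 fun n => ?_
  rw [norm_smul, norm_inv, Real.norm_natCast]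
  exact mul_le_mul_of_nonneg_left (norm_pow_le' x (by omega)) (by positivity)

theorem norm_exp_sub_one_le (x : A) : ‖exp x - 1‖ ≤ Real.exp ‖x‖ - 1 := by
  simpa using norm_exp_sub_sum_le x 1 one_pos

theorem norm_exp_sub_one_sub_le (x : A) : ‖exp x - 1 - x‖ ≤ Real.exp ‖x‖ - 1 - ‖x‖ := by
  have h := norm_exp_sub_sum_le x 2 two_pos
  simp only [sum_range_succ, range_zero, sum_empty, Nat.factorial, Nat.cast_one, inv_one, pow_zero,
    one_smul, zero_add, mul_one, pow_one, Nat.succ_eq_add_one, one_mul] at h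
  rw [sub_sub, sub_sub]
  exact h

theorem norm_mul_exp_le (w x : A) : ‖w * exp x‖ ≤ ‖w‖ * Real.exp ‖x‖ := by
  have h1 : w * exp x = w + w * (exp x - 1) := by ring
  rw [h1]
  have h2 := norm_exp_sub_one_le x
  calc ‖w + w * (exp x - 1)‖ ≤ ‖w‖ + ‖w‖ * ‖exp x - 1‖ :=
        (norm_add_le _ _).trans (add_le_add le_rfl (norm_mul_le _ _))
    _ ≤ ‖w‖ + ‖w‖ * (Real.exp ‖x‖ - 1) := by gcongr
    _ = ‖w‖ * Real.exp ‖x‖ := by ring

theorem norm_exp_le [NormOneClass A] (x : A) : ‖exp x‖ ≤ Real.exp ‖x‖ := by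
  simpa using norm_mul_exp_le 1 x

/-- The exponential is injective near zero. -/
theorem eq_zero_of_exp_eq_one {x : A} (hx : ‖x‖ ≤ 1) (h : exp x = 1) : x = 0 := by
  have h1 := norm_exp_sub_one_sub_le x
  rw [h, sub_self, zero_sub, norm_neg] at h1
  by_contra hne
  have hpos : 0 < ‖x‖ := norm_pos_iff.2 hne
  have h2 := Real.exp_bound' hpos.le hx (n := 2) two_pos
  simp only [sum_range_succ, range_zero, sum_empty, Nat.factorial, pow_zero, pow_one] at h2
  norm_num at h2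
  nlinarith

theorem eq_of_exp_eq {x y : A} (hxy : ‖x - y‖ ≤ 1) (h : exp x = exp y) : x = y := by
  have h1 : exp (x - y) = 1 := by
    have h2 := exp_sub_mul x y
    rw [h] at h2
    exact (isUnit_exp' y).mul_right_cancel (by rw [h2, one_mul])
  exact sub_eq_zero.1 (eq_zero_of_exp_eq_one hxy h1)

/-- The series of `log (1 + x)`. -/
def lg (x : A) : A := ∑' n : ℕ, ((-1) ^ n / ((n : ℝ) + 1)) • x ^ (n + 1)

omit [CompleteSpace A] in
theorem norm_lg_term_le (x : A) (n : ℕ) :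
    ‖((-1) ^ n / ((n : ℝ) + 1)) • x ^ (n + 1)‖ ≤ ‖x‖ ^ (n + 1) / ((n : ℝ) + 1) := by
  rw [norm_smul, norm_div, norm_pow, norm_neg, norm_one, one_pow, Real.norm_of_nonneg (by positivity),
    one_div, inv_mul_eq_div]
  exact div_le_div_of_nonneg_right (norm_pow_le' x (by omega)) (by positivity)

theorem hasSum_lg {x : A} (hx : ‖x‖ < 1) :
    HasSum (fun n : ℕ => ((-1) ^ n / ((n : ℝ) + 1)) • x ^ (n + 1)) (lg x) := by
  have h := Real.hasSum_pow_div_log_of_abs_lt_one (x := ‖x‖) (by rwa [abs_norm])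
  exact (Summable.of_norm_bounded h.summable (norm_lg_term_le x)).hasSum

omit [CompleteSpace A] in
@[simp] theorem lg_zero : lg (0 : A) = 0 := by simp [lg]

theorem norm_lg_le {x : A} (hx : ‖x‖ < 1) : ‖lg x‖ ≤ -Real.log (1 - ‖x‖) :=
  (hasSum_lg hx).norm_le_of_bounded
    (Real.hasSum_pow_div_log_of_abs_lt_one (x := ‖x‖) (by rwa [abs_norm])) (norm_lg_term_le x)

theorem norm_lg_sub_le {x : A} (hx : ‖x‖ ≤ 1 / 2) : ‖lg x - x‖ ≤ ‖x‖ ^ 2 := by
  have hx1 : ‖x‖ < 1 := by linarith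
  have h1 : HasSum (fun n : ℕ => ((-1) ^ (n + 1) / (((n + 1 : ℕ) : ℝ) + 1)) • x ^ (n + 1 + 1))
      (lg x - x) := by
    have h0 := (hasSum_nat_add_iff' (f := fun n : ℕ => ((-1) ^ n / ((n : ℝ) + 1)) • x ^ (n + 1))
      1).2 (hasSum_lg hx1)
    rw [range_one, sum_singleton, pow_zero, Nat.cast_zero, zero_add, zero_add, div_one, one_smul,
      pow_one] at h0
    exact h0
  have h2 : HasSum (fun n : ℕ => ‖x‖ ^ 2 / 2 * (1 / 2 : ℝ) ^ n) (‖x‖ ^ 2 / 2 * 2) :=
    hasSum_geometric_two.mul_left _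
  have hb : ∀ n : ℕ, ‖((-1) ^ (n + 1) / (((n + 1 : ℕ) : ℝ) + 1)) • x ^ (n + 1 + 1)‖
      ≤ ‖x‖ ^ 2 / 2 * (1 / 2 : ℝ) ^ n := by
    intro n
    refine (norm_lg_term_le x (n + 1)).trans ?_
    have h4 : ‖x‖ ^ n ≤ (1 / 2 : ℝ) ^ n := pow_le_pow_left₀ (norm_nonneg _) hx n
    have h5 : (2 : ℝ) ≤ ((n + 1 : ℕ) : ℝ) + 1 := by
      push_cast
      have : (0 : ℝ) ≤ n := n.cast_nonneg
      linarith
    calc ‖x‖ ^ (n + 1 + 1) / (((n + 1 : ℕ) : ℝ) + 1) ≤ ‖x‖ ^ (n + 1 + 1) / 2 :=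
          div_le_div_of_nonneg_left (by positivity) two_pos h5
      _ = ‖x‖ ^ 2 / 2 * ‖x‖ ^ n := by ring
      _ ≤ ‖x‖ ^ 2 / 2 * (1 / 2 : ℝ) ^ n := mul_le_mul_of_nonneg_left h4 (by positivity)
  have h3 : ‖lg x - x‖ ≤ ‖x‖ ^ 2 / 2 * 2 := h1.norm_le_of_bounded h2 hb
  linarith

theorem map_lg {B : Type*} [NormedCommRing B] [NormedAlgebra ℝ B] (f : A →ₐ[ℝ] B)
    (hf : Continuous f) {x : A} (hx : ‖x‖ < 1) : f (lg x) = lg (f x) := by
  have h := (hasSum_lg hx).map f hf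
  rw [← h.tsum_eq, lg]
  refine tsum_congr fun n => ?_
  simp

theorem exp_lg {x : A} (hx : ‖x‖ < 1) : exp (lg x) = 1 + x := by
  obtain ⟨r, hr1, hrx⟩ : ∃ r : ℝ, 1 < r ∧ r * ‖x‖ < 1 := by
    refine ⟨2 / (1 + ‖x‖), ?_, ?_⟩
    · rw [lt_div_iff₀ (by positivity)]; linarith
    · rw [div_mul_eq_mul_div, div_lt_one (by positivity)]; linarith
  have hq0 : 0 ≤ r * ‖x‖ := by positivity
  set g : ℕ → ℝ → A := fun n s => ((-1) ^ n / ((n : ℝ) + 1) * s ^ (n + 1)) • x ^ (n + 1) with hg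
  set g' : ℕ → ℝ → A := fun n s => ((-1) ^ n * s ^ n : ℝ) • x ^ (n + 1) with hg'
  have hd : ∀ n s, HasDerivAt (g n) (g' n s) s := by
    intro n s
    have h1 := ((hasDerivAt_pow (n + 1) s).const_mul ((-1) ^ n / ((n : ℝ) + 1))).smul_const
      (x ^ (n + 1))
    refine h1.congr_deriv ?_
    simp only [hg']
    congr 1
    push_cast
    have : (n : ℝ) + 1 ≠ 0 := by positivity
    field_simp
  have hb : ∀ n s, s ∈ Set.Ioo (-r) r → ‖g' n s‖ ≤ ‖x‖ * (r * ‖x‖) ^ n := by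
    intro n s hs
    have h1 : |s| ≤ r := abs_le.2 ⟨hs.1.le, hs.2.le⟩
    simp only [hg']
    rw [norm_smul, norm_mul, norm_pow, norm_pow, norm_neg, norm_one, one_pow, one_mul,
      Real.norm_eq_abs]
    calc |s| ^ n * ‖x ^ (n + 1)‖ ≤ r ^ n * ‖x‖ ^ (n + 1) := by
          gcongr
          exact norm_pow_le' x (by omega)
      _ = ‖x‖ * (r * ‖x‖) ^ n := by ring
  have hu : Summable fun n : ℕ => ‖x‖ * (r * ‖x‖) ^ n :=
    (summable_geometric_of_lt_one hq0 hrx).mul_left _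
  have h0 : (0 : ℝ) ∈ Set.Ioo (-r) r := ⟨by linarith, by linarith⟩
  have hs0 : Summable fun n => g n 0 := by
    simp [hg]
  have hL : ∀ s ∈ Set.Ioo (-r) r, HasDerivAt (fun z => ∑' n, g n z) (∑' n, g' n s) s :=
    fun s hs => hasDerivAt_tsum_of_isPreconnected hu isOpen_Ioo isPreconnected_Ioo
      (fun n y _ => hd n y) hb h0 hs0 hs
  have hkey : ∀ s ∈ Set.Ioo (-r) r, (∑' n, g' n s) * (1 + s • x) = x := by
    intro s hs
    have hsum : Summable fun n => g' n s := Summable.of_norm_bounded hu fun n => hb n s hs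
    have h1 : ∀ n, g' n s * (s • x) = -g' (n + 1) s := by
      intro n
      simp only [hg']
      rw [smul_mul_smul_comm, ← neg_smul, ← pow_succ]
      congr 1
      ring
    have h2 : (∑' n, g' n s) * (s • x) = -∑' n, g' (n + 1) s := by
      rw [← hsum.tsum_mul_right, ← tsum_neg]
      exact tsum_congr h1
    rw [mul_add, mul_one, h2, hsum.tsum_eq_zero_add]
    simp [hg']
  set G : ℝ → A := fun s => exp (-∑' n, g n s) * (1 + s • x) with hG
  have hGd : ∀ s ∈ Set.Ioo (-r) r, HasDerivAt G 0 s := by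
    intro s hs
    have h1 := (hasFDerivAt_exp (𝕂 := ℝ) (x := -∑' n, g n s)).comp_hasDerivAt s (hL s hs).neg
    have h2 : HasDerivAt (fun z : ℝ => (1 : A) + z • x) x s := by
      simpa using ((hasDerivAt_id s).smul_const x).const_add 1
    have h3 := h1.mul h2
    refine h3.congr_deriv ?_
    simp only [smul_apply, one_apply_eq_self, smul_eq_mul,
      Function.comp_apply, Pi.neg_apply]
    rw [mul_neg, neg_mul, mul_assoc, hkey s hs, neg_add_cancel]
  have hsub : Set.Icc (0 : ℝ) 1 ⊆ Set.Ioo (-r) r := fun s hs => ⟨by linarith [hs.1], by linarith [hs.2]⟩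
  have hconst := constant_of_has_deriv_right_zero (f := G) (a := 0) (b := 1)
    (fun s hs => (hGd s (hsub hs)).continuousAt.continuousWithinAt)
    (fun s hs => (hGd s (hsub (Set.Ico_subset_Icc_self hs))).hasDerivWithinAt) 1
    ⟨zero_le_one, le_rfl⟩
  have hG0 : G 0 = 1 := by simp [hG, hg]
  have hG1 : G 1 = exp (-lg x) * (1 + x) := by simp [hG, hg, lg]
  rw [hG0, hG1] at hconst
  calc exp (lg x) = exp (lg x) * (exp (-lg x) * (1 + x)) := by rw [hconst, mul_one]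
    _ = 1 + x := by rw [← mul_assoc, exp_mul_exp_neg, one_mul]

/-- If `‖x‖ ≤ 1 - e^{-b}` then `‖log (1 + x)‖ ≤ b`. -/
theorem norm_lg_le_of_le {x : A} {b : ℝ} (hx : ‖x‖ ≤ 1 - Real.exp (-b)) : ‖lg x‖ ≤ b := by
  have h0 := Real.exp_pos (-b)
  refine (norm_lg_le (by linarith)).trans ?_
  have h1 : -b ≤ Real.log (1 - ‖x‖) := by
    rw [Real.le_log_iff_exp_le (by linarith)]
    linarith
  linarith

theorem mul_exp_neg_le (b : ℝ) : b * Real.exp (-b) ≤ 1 - Real.exp (-b) := by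
  have h1 := Real.add_one_le_exp b
  have h2 : Real.exp b * Real.exp (-b) = 1 := by rw [← Real.exp_add]; simp
  have h3 := Real.exp_pos (-b)
  nlinarith

end

end Vale.Agent.P144Z.KP
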