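import Vale.Agent.P144Z.KP.Log

/-!
# Hard-core polymer gases with activities in a commutative Banach algebra

`Z R w L` is the partition function of the polymers in `L`, `ell R w L` its logarithm.
-/

namespace Vale.Agent.P144Z.KP

open NormedSpace Finset

noncomputable section

variable {K : Type*} (R : K → K → Prop)

open Classical in
/-- The families of pairwise compatible polymers of `L`. -/
def Cpt (L : Finset K) : Finset (Finset K) :=
  L.powerset.filter fun I => ∀ u ∈ I, ∀ v ∈ I, u ≠ v → ¬ R u v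

open Classical in
/-- The polymers of `L` other than `v` and compatible with `v`. -/
def Nb (v : K) (L : Finset K) : Finset K := L.filter fun u => u ≠ v ∧ ¬ R u v

open Classical in
/-- The polymers of `L` other than `v` and incompatible with `v`. -/
def Inc (v : K) (L : Finset K) : Finset K := L.filter fun u => u ≠ v ∧ R u v

variable {R}

theorem mem_Cpt {L I : Finset K} :
    I ∈ Cpt R L ↔ I ⊆ L ∧ ∀ u ∈ I, ∀ v ∈ I, u ≠ v → ¬ R u v := by
  classical
  rw [Cpt, mem_filter, mem_powerset]

theorem mem_Nb {v u : K} {L : Finset K} : u ∈ Nb R v L ↔ u ∈ L ∧ u ≠ v ∧ ¬ R u v := by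
  classical
  rw [Nb, mem_filter]

theorem mem_Inc {v u : K} {L : Finset K} : u ∈ Inc R v L ↔ u ∈ L ∧ u ≠ v ∧ R u v := by
  classical
  rw [Inc, mem_filter]

theorem Nb_subset_erase [DecidableEq K] (v : K) (L : Finset K) : Nb R v L ⊆ L.erase v := fun _ hu =>
  mem_erase.2 ⟨(mem_Nb.1 hu).2.1, (mem_Nb.1 hu).1⟩

theorem card_Nb_lt {v : K} {L : Finset K} (hv : v ∈ L) : (Nb R v L).card < L.card := by
  classical
  exact (card_le_card (Nb_subset_erase _ _)).trans_lt (card_erase_lt_of_mem hv)

theorem erase_sdiff_Nb [DecidableEq K] (v : K) (L : Finset K) : L.erase v \ Nb R v L = Inc R v L := by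
  ext u
  rw [mem_sdiff, mem_erase, mem_Nb, mem_Inc]
  tauto

theorem Inc_mono (v : K) {L L' : Finset K} (h : L ⊆ L') : Inc R v L ⊆ Inc R v L' := fun _ hu =>
  mem_Inc.2 ⟨h (mem_Inc.1 hu).1, (mem_Inc.1 hu).2⟩

section Z

variable {A : Type*} [CommRing A]

variable (R) in
/-- The partition function of the polymers in `L`. -/
def Z (w : K → A) (L : Finset K) : A := ∑ I ∈ Cpt R L, ∏ v ∈ I, w v

@[simp] theorem Z_empty (w : K → A) : Z R w ∅ = 1 := by
  have : Cpt R (∅ : Finset K) = {∅} := by
    ext I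
    rw [mem_Cpt, mem_singleton, subset_empty]
    constructor
    · exact fun h => h.1
    · rintro rfl
      simp
  rw [Z, this]
  simp

theorem Z_erase [DecidableEq K] (hR : ∀ u v, R u v → R v u) (w : K → A) {v : K} {L : Finset K} (hv : v ∈ L) :
    Z R w L = Z R w (L.erase v) + w v * Z R w (Nb R v L) := by
  have h1 : Cpt R L = Cpt R (L.erase v) ∪ (Cpt R (Nb R v L)).image (insert v) := by
    ext I
    rw [mem_union, mem_image]
    simp only [mem_Cpt]
    constructor
    · rintro ⟨hI, hc⟩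
      by_cases hvI : v ∈ I
      · right
        refine ⟨I.erase v, ⟨?_, ?_⟩, insert_erase hvI⟩
        · intro u hu
          rw [mem_erase] at hu
          exact mem_Nb.2 ⟨hI hu.2, hu.1, hc u hu.2 v hvI hu.1⟩
        · intro u hu u' hu' hne
          exact hc u (mem_of_mem_erase hu) u' (mem_of_mem_erase hu') hne
      · left
        exact ⟨fun u hu => mem_erase.2 ⟨fun h => hvI (h ▸ hu), hI hu⟩, hc⟩
    · rintro (⟨hI, hc⟩ | ⟨J, ⟨hJ, hc⟩, rfl⟩)
      · exact ⟨hI.trans (erase_subset _ _), hc⟩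
      · refine ⟨insert_subset hv fun u hu => (mem_Nb.1 (hJ hu)).1, ?_⟩
        intro u hu u' hu' hne
        rw [mem_insert] at hu hu'
        rcases hu with rfl | hu <;> rcases hu' with rfl | hu'
        · exact absurd rfl hne
        · intro h
          exact (mem_Nb.1 (hJ hu')).2.2 (hR _ _ h)
        · exact (mem_Nb.1 (hJ hu)).2.2
        · exact hc u hu u' hu' hne
  have hvN : ∀ J ∈ Cpt R (Nb R v L), v ∉ J := fun J hJ hvJ =>
    (mem_Nb.1 ((mem_Cpt.1 hJ).1 hvJ)).2.1 rfl
  have h2 : Disjoint (Cpt R (L.erase v)) ((Cpt R (Nb R v L)).image (insert v)) := by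
    rw [disjoint_left]
    intro I hI hI'
    obtain ⟨J, -, rfl⟩ := mem_image.1 hI'
    exact notMem_erase v L ((mem_Cpt.1 hI).1 (mem_insert_self _ _))
  rw [Z, h1, sum_union h2, sum_image, Z, Z, mul_sum]
  · congr 1
    refine sum_congr rfl fun J hJ => ?_
    rw [prod_insert (hvN J hJ)]
  · intro J hJ J' hJ' h
    have h3 := hvN J hJ
    have h4 := hvN J' hJ'
    rw [← erase_insert h3, ← erase_insert h4]
    exact congrArg (fun s => erase s v) h

end Z

variable [DecidableEq K] {A : Type*} [NormedCommRing A] [NormedAlgebra ℝ A]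

variable (R) in
/-- The logarithm of the partition function, built by adding one polymer at a time. -/
def ell (w : K → A) (L : Finset K) : A :=
  if h : L.Nonempty then
    ell w (L.erase h.choose) +
      lg (w h.choose * exp (ell w (Nb R h.choose L) - ell w (L.erase h.choose)))
  else 0
termination_by L.card
decreasing_by
  all_goals first
    | exact card_erase_lt_of_mem h.choose_spec
    | exact card_Nb_lt h.choose_spec

variable (R) in
/-- The argument of the logarithm when the polymer `v` is removed from `L`. -/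
def arg (w : K → A) (v : K) (L : Finset K) : A :=
  w v * exp (ell R w (Nb R v L) - ell R w (L.erase v))

@[simp] theorem ell_empty (w : K → A) : ell R w ∅ = 0 := by
  rw [ell, dif_neg Finset.not_nonempty_empty]

theorem ell_of_nonempty (w : K → A) {L : Finset K} (h : L.Nonempty) :
    ell R w L = ell R w (L.erase h.choose) + lg (arg R w h.choose L) := by
  rw [ell, dif_pos h, arg]

/-- `ell R w L` only depends on the restriction of the data to `L`. -/
theorem ell_congr {R' : K → K → Prop} {w w' : K → A} (L : Finset K)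
    (hR : ∀ u ∈ L, ∀ v ∈ L, u ≠ v → (R u v ↔ R' u v)) (hw : ∀ v ∈ L, w v = w' v) :
    ell R w L = ell R' w' L := by
  induction L using Finset.strongInduction with
  | H L ih =>
    rcases L.eq_empty_or_nonempty with rfl | h
    · simp
    have hv := h.choose_spec
    have hN : Nb R h.choose L = Nb R' h.choose L := by
      ext u
      rw [mem_Nb, mem_Nb]
      exact and_congr_right fun hu => and_congr_right fun hne => not_congr (hR u hu _ hv hne)
    have hih : ∀ M ⊆ L.erase h.choose, ell R w M = ell R' w' M := fun M hM =>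
      ih M (Finset.ssubset_of_subset_of_ssubset hM (erase_ssubset hv))
        (fun u hu v hv => hR u (mem_of_mem_erase (hM hu)) v (mem_of_mem_erase (hM hv)))
        fun u hu => hw u (mem_of_mem_erase (hM hu))
    rw [ell_of_nonempty w h, ell_of_nonempty w' h, arg, arg, ← hN, hih _ Subset.rfl,
      hih _ (Nb_subset_erase _ _), hw _ hv]

theorem lg_mem (S : NonUnitalSubalgebra ℝ A) (hS : IsClosed (S : Set A)) {x : A} (hx : x ∈ S) :
    lg x ∈ S := by
  refine tsum_mem hS fun n => SMulMemClass.smul_mem _ ?_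
  induction n with
  | zero => simpa using hx
  | succ n ih => rw [pow_succ]; exact mul_mem ih hx

theorem mul_exp_mem [CompleteSpace A] (S : NonUnitalSubalgebra ℝ A) (hS : IsClosed (S : Set A))
    {x y : A} (hx : x ∈ S) (hy : y ∈ S) : x * exp y ∈ S := by
  rw [← ((hasSum_exp y).mul_left x).tsum_eq]
  refine tsum_mem hS fun n => ?_
  rw [mul_smul_comm]
  refine SMulMemClass.smul_mem _ ?_
  induction n with
  | zero => simpa using hx
  | succ n ih => rw [pow_succ, ← mul_assoc]; exact mul_mem ih hy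

/-- The logarithm lies in every closed subalgebra (unital or not) containing the activities. -/
theorem ell_mem [CompleteSpace A] (S : NonUnitalSubalgebra ℝ A) (hS : IsClosed (S : Set A))
    {w : K → A} (L : Finset K) (hw : ∀ v ∈ L, w v ∈ S) : ell R w L ∈ S := by
  induction L using Finset.strongInduction with
  | H L ih =>
    rcases L.eq_empty_or_nonempty with rfl | h
    · simp
    have hv := h.choose_spec
    have hih : ∀ M ⊆ L.erase h.choose, ell R w M ∈ S := fun M hM =>
      ih M (Finset.ssubset_of_subset_of_ssubset hM (erase_ssubset hv))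
        fun u hu => hw u (mem_of_mem_erase (hM hu))
    rw [ell_of_nonempty w h, arg]
    exact add_mem (hih _ Subset.rfl) (lg_mem S hS (mul_exp_mem S hS (hw _ hv)
      (sub_mem (hih _ (Nb_subset_erase _ _)) (hih _ Subset.rfl))))

omit [DecidableEq K] [NormedAlgebra ℝ A] in
variable (R) in
/-- The convergence condition of Dobrushin for the polymers in `L₀`. -/
structure Dob (w : K → A) (L₀ : Finset K) (b : K → ℝ) : Prop where
  symm : ∀ u v, R u v → R v u
  nonneg : ∀ v ∈ L₀, 0 ≤ b v
  small : ∀ v ∈ L₀, b v ≤ 1 / 4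
  bound : ∀ v ∈ L₀, ‖w v‖ * Real.exp (∑ u ∈ Inc R v L₀, b u) ≤ 1 - Real.exp (-b v)

variable {w : K → A} {L₀ : Finset K} {b : K → ℝ}

omit [DecidableEq K] [NormedAlgebra ℝ A] in
theorem Dob.mono (h : Dob R w L₀ b) {L : Finset K} (hL : L ⊆ L₀) : Dob R w L b where
  symm := h.symm
  nonneg v hv := h.nonneg v (hL hv)
  small v hv := h.small v (hL hv)
  bound v hv := le_trans (mul_le_mul_of_nonneg_left (Real.exp_le_exp.2
    (sum_le_sum_of_subset_of_nonneg (Inc_mono v hL) fun u hu _ => h.nonneg u (mem_Inc.1 hu).1))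
    (norm_nonneg _)) (h.bound v (hL hv))

omit [DecidableEq K] [NormedAlgebra ℝ A] in
/-- The condition only sees the norms of the activities. -/
theorem Dob.of_norm_le {B : Type*} [NormedCommRing B] (h : Dob R w L₀ b) {w' : K → B}
    (hw : ∀ v ∈ L₀, ‖w' v‖ ≤ ‖w v‖) : Dob R w' L₀ b where
  symm := h.symm
  nonneg := h.nonneg
  small := h.small
  bound v hv := le_trans (mul_le_mul_of_nonneg_right (hw v hv) (Real.exp_pos _).le) (h.bound v hv)

variable [CompleteSpace A]

theorem Dob.main (h : Dob R w L₀ b) (L : Finset K) (hL : L ⊆ L₀) :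
    exp (ell R w L) = Z R w L ∧
    (∀ v ∈ L, ell R w L = ell R w (L.erase v) + lg (arg R w v L)) ∧
    ∀ M ⊆ L, ‖ell R w L - ell R w M‖ ≤ ∑ u ∈ L \ M, b u := by
  induction L using Finset.strongInduction with
  | H L ih =>
    rcases L.eq_empty_or_nonempty with rfl | hne
    · refine ⟨by simp, by simp, fun M hM => ?_⟩
      rw [subset_empty.1 hM]
      simp
    have ihe := fun v (hv : v ∈ L) => ih _ (erase_ssubset hv) ((erase_subset _ _).trans hL)
    have harg : ∀ v ∈ L, ‖arg R w v L‖ ≤ 1 - Real.exp (-b v) := by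
      intro v hv
      have h1 := (ihe v hv).2.2 _ (Nb_subset_erase (R := R) v L)
      rw [erase_sdiff_Nb, norm_sub_rev] at h1
      refine (norm_mul_exp_le _ _).trans (le_trans ?_ ((h.mono hL).bound v hv))
      exact mul_le_mul_of_nonneg_left (Real.exp_le_exp.2 h1) (norm_nonneg _)
    have hlg : ∀ v ∈ L, ‖lg (arg R w v L)‖ ≤ b v := fun v hv => norm_lg_le_of_le (harg v hv)
    have hexp : ∀ v ∈ L, exp (ell R w (L.erase v) + lg (arg R w v L)) = Z R w L := by
      intro v hv
      have h1 : ‖arg R w v L‖ < 1 := by linarith [harg v hv, Real.exp_pos (-b v)]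
      have h2 := (ih _ (Finset.ssubset_of_subset_of_ssubset (Nb_subset_erase (R := R) v L)
        (erase_ssubset hv)) ((Nb_subset_erase v L).trans ((erase_subset _ _).trans hL))).1
      rw [exp_add', exp_lg h1, Z_erase h.symm w hv, ← (ihe v hv).1, ← h2, arg, mul_add, mul_one,
        mul_left_comm, mul_comm (exp (ell R w (L.erase v))), exp_sub_mul]
    have hv₀ := hne.choose_spec
    have hdef := ell_of_nonempty (R := R) w hne
    set v₀ := hne.choose
    have hrec : ∀ v ∈ L, ell R w L = ell R w (L.erase v) + lg (arg R w v L) := by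
      intro v hv
      by_cases hvv : v = v₀
      · rw [hvv]; exact hdef
      refine eq_of_exp_eq ?_ (by rw [hexp v hv, hdef, hexp v₀ hv₀])
      have h1 := (ihe v₀ hv₀).2.2 _ (erase_subset v _)
      have h2 := (ihe v hv).2.2 _ (erase_subset v₀ _)
      rw [sdiff_erase_self (mem_erase.2 ⟨hvv, hv⟩), sum_singleton] at h1
      rw [sdiff_erase_self (mem_erase.2 ⟨Ne.symm hvv, hv₀⟩), sum_singleton, erase_right_comm] at h2
      have h3 : ell R w L - (ell R w (L.erase v) + lg (arg R w v L)) =
          ((ell R w (L.erase v₀) - ell R w ((L.erase v₀).erase v))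
            - (ell R w (L.erase v) - ell R w ((L.erase v₀).erase v)))
          + (lg (arg R w v₀ L) - lg (arg R w v L)) := by
        rw [hdef]; ring
      rw [h3]
      have h4 := hlg v hv
      have h5 := hlg v₀ hv₀
      have h6 := h.small v (hL hv)
      have h7 := h.small v₀ (hL hv₀)
      refine (norm_add_le _ _).trans ?_
      refine (add_le_add (norm_sub_le _ _) (norm_sub_le _ _)).trans ?_
      linarith
    refine ⟨by rw [hdef, hexp v₀ hv₀], hrec, fun M hM => ?_⟩
    by_cases hML : M = L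
    · rw [hML]; simp
    obtain ⟨v, hv, hvM⟩ := exists_of_ssubset (hM.ssubset_of_ne hML)
    have h1 := (ihe v hv).2.2 M fun u hu => mem_erase.2 ⟨fun huv => hvM (huv ▸ hu), hM hu⟩
    have h2 : ell R w L - ell R w M = lg (arg R w v L) + (ell R w (L.erase v) - ell R w M) := by
      rw [hrec v hv]; ring
    rw [h2, ← add_sum_erase _ _ (mem_sdiff.2 ⟨hv, hvM⟩), ← erase_sdiff_comm]
    exact (norm_add_le _ _).trans (add_le_add (hlg v hv) h1)

theorem Dob.exp_ell (h : Dob R w L₀ b) {L : Finset K} (hL : L ⊆ L₀) :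
    exp (ell R w L) = Z R w L := (h.main L hL).1

theorem Dob.ell_erase (h : Dob R w L₀ b) {L : Finset K} (hL : L ⊆ L₀) {v : K} (hv : v ∈ L) :
    ell R w L = ell R w (L.erase v) + lg (arg R w v L) := (h.main L hL).2.1 v hv

theorem Dob.norm_sub_le (h : Dob R w L₀ b) {L M : Finset K} (hL : L ⊆ L₀) (hM : M ⊆ L) :
    ‖ell R w L - ell R w M‖ ≤ ∑ u ∈ L \ M, b u := (h.main L hL).2.2 M hM

theorem Dob.norm_ell_le (h : Dob R w L₀ b) {L : Finset K} (hL : L ⊆ L₀) :
    ‖ell R w L‖ ≤ ∑ u ∈ L, b u := by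
  simpa using h.norm_sub_le hL (empty_subset L)

theorem Dob.norm_D_le (h : Dob R w L₀ b) {L : Finset K} (hL : L ⊆ L₀) (v : K) :
    ‖ell R w (Nb R v L) - ell R w (L.erase v)‖ ≤ ∑ u ∈ Inc R v L₀, b u := by
  have h1 := h.norm_sub_le ((erase_subset v L).trans hL) (Nb_subset_erase (R := R) v L)
  rw [erase_sdiff_Nb, norm_sub_rev] at h1
  exact h1.trans
    (sum_le_sum_of_subset_of_nonneg (Inc_mono v hL) fun u hu _ => h.nonneg u (mem_Inc.1 hu).1)

theorem Dob.norm_arg_le (h : Dob R w L₀ b) {L : Finset K} (hL : L ⊆ L₀) {v : K} (hv : v ∈ L) :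
    ‖arg R w v L‖ ≤ 1 - Real.exp (-b v) :=
  (norm_mul_exp_le _ _).trans (le_trans (mul_le_mul_of_nonneg_left
    (Real.exp_le_exp.2 (h.norm_D_le hL v)) (norm_nonneg _)) (h.bound v (hL hv)))

theorem Dob.norm_arg_lt (h : Dob R w L₀ b) {L : Finset K} (hL : L ⊆ L₀) {v : K} (hv : v ∈ L) :
    ‖arg R w v L‖ < 1 := by
  linarith [h.norm_arg_le hL hv, Real.exp_pos (-b v)]

/-- Polymers of activity zero can be dropped. -/
theorem Dob.ell_eq_of_zero (h : Dob R w L₀ b) {L M : Finset K} (hL : L ⊆ L₀) (hM : M ⊆ L)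
    (hw : ∀ v ∈ L, v ∉ M → w v = 0) : ell R w L = ell R w M := by
  induction L using Finset.strongInduction with
  | H L ih =>
    by_cases hML : M = L
    · rw [hML]
    obtain ⟨v, hv, hvM⟩ := exists_of_ssubset (hM.ssubset_of_ne hML)
    rw [h.ell_erase hL hv, arg, hw v hv hvM, zero_mul, lg_zero, add_zero]
    exact ih _ (erase_ssubset hv) ((erase_subset _ _).trans hL)
      (fun u hu => mem_erase.2 ⟨fun huv => hvM (huv ▸ hu), hM hu⟩)
      fun u hu => hw u (mem_of_mem_erase hu)

/-- The logarithm is additive over mutually compatible families. -/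
theorem Dob.ell_union (h : Dob R w L₀ b) {L₁ L₂ : Finset K} (h₁ : L₁ ⊆ L₀) (h₂ : L₂ ⊆ L₀)
    (hd : Disjoint L₁ L₂) (hc : ∀ u ∈ L₁, ∀ v ∈ L₂, w u ≠ 0 → w v ≠ 0 → ¬ R u v) :
    ell R w (L₁ ∪ L₂) = ell R w L₁ + ell R w L₂ := by
  induction L₂ using Finset.strongInduction generalizing L₁ with
  | H L₂ ih =>
    rcases L₂.eq_empty_or_nonempty with rfl | ⟨v, hv⟩
    · simp
    have hv1 : v ∉ L₁ := disjoint_right.1 hd hv
    have hih : ∀ M₁ ⊆ L₁, ∀ M₂ ⊆ L₂.erase v, ell R w (M₁ ∪ M₂) = ell R w M₁ + ell R w M₂ :=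
      fun M₁ hM₁ M₂ hM₂ => ih M₂ (Finset.ssubset_of_subset_of_ssubset hM₂ (erase_ssubset hv))
        (hM₁.trans h₁) (hM₂.trans ((erase_subset _ _).trans h₂))
        (disjoint_of_subset_left hM₁ (disjoint_of_subset_right (hM₂.trans (erase_subset _ _)) hd))
        fun u hu u' hu' => hc u (hM₁ hu) u' (mem_of_mem_erase (hM₂ hu'))
    have he : (L₁ ∪ L₂).erase v = L₁ ∪ L₂.erase v := by
      rw [erase_union_distrib, erase_eq_of_notMem hv1]
    have hN : Nb R v (L₁ ∪ L₂) = Nb R v L₁ ∪ Nb R v L₂ := by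
      ext u
      simp only [mem_union, mem_Nb]
      tauto
    rw [h.ell_erase (union_subset h₁ h₂) (mem_union_right _ hv), h.ell_erase h₂ hv, arg, arg, he,
      hN, hih _ Subset.rfl _ Subset.rfl, add_assoc]
    by_cases hw : w v = 0
    · rw [hw, zero_mul, zero_mul]
    rw [hih _ (fun u hu => (mem_Nb.1 hu).1) _ (Nb_subset_erase _ _),
      ← h.ell_eq_of_zero (L := L₁) (M := Nb R v L₁) h₁ (fun u hu => (mem_Nb.1 hu).1),
      add_sub_add_left_eq_sub]
    intro u hu hu'
    by_contra hwu
    exact hu' (mem_Nb.2 ⟨hu, fun huv => hv1 (huv ▸ hu), hc u hu v hv hwu hw⟩)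

/-- Naturality under maps of the polymers and continuous maps of the algebra. -/
theorem Dob.ell_image {K' B : Type*} [DecidableEq K'] [NormedCommRing B] [NormedAlgebra ℝ B]
    [CompleteSpace B] {R' : K' → K' → Prop} {w' : K' → B} {L₀' : Finset K'} {b' : K' → ℝ}
    (h : Dob R w L₀ b) (h' : Dob R' w' L₀' b') (f : A →ₐ[ℝ] B) (hf : Continuous f) (e : K → K')
    {L : Finset K} (hL : L ⊆ L₀) (hL' : ∀ v ∈ L, e v ∈ L₀') (he : Set.InjOn e L)
    (hR : ∀ u ∈ L, ∀ v ∈ L, u ≠ v → (R' (e u) (e v) ↔ R u v)) (hw : ∀ v ∈ L, w' (e v) = f (w v)) :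
    ell R' w' (L.image e) = f (ell R w L) := by
  induction L using Finset.strongInduction with
  | H L ih =>
    rcases L.eq_empty_or_nonempty with rfl | ⟨v, hv⟩
    · simp
    have hih : ∀ M ⊆ L.erase v, ell R' w' (M.image e) = f (ell R w M) := fun M hM =>
      have hML : M ⊆ L := hM.trans (erase_subset _ _)
      ih M (Finset.ssubset_of_subset_of_ssubset hM (erase_ssubset hv)) (hML.trans hL)
        (fun u hu => hL' u (hML hu)) (he.mono hML) (fun u hu u' hu' => hR u (hML hu) u' (hML hu'))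
        fun u hu => hw u (hML hu)
    have h1 : (L.image e).erase (e v) = (L.erase v).image e := by
      ext x
      simp only [mem_erase, mem_image]
      constructor
      · rintro ⟨hne, u, hu, rfl⟩
        exact ⟨u, ⟨fun huv => hne (by rw [huv]), hu⟩, rfl⟩
      · rintro ⟨u, ⟨hne, hu⟩, rfl⟩
        exact ⟨fun huv => hne (he hu hv huv), u, hu, rfl⟩
    have h2 : Nb R' (e v) (L.image e) = (Nb R v L).image e := by
      ext x
      simp only [mem_Nb, mem_image]
      constructor
      · rintro ⟨⟨u, hu, rfl⟩, hne, hr⟩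
        have hne' : u ≠ v := fun huv => hne (by rw [huv])
        exact ⟨u, ⟨hu, hne', fun hr' => hr ((hR u hu v hv hne').2 hr')⟩, rfl⟩
      · rintro ⟨u, ⟨hu, hne, hr⟩, rfl⟩
        exact ⟨⟨u, hu, rfl⟩, fun huv => hne (he hu hv huv), fun hr' => hr ((hR u hu v hv hne).1 hr')⟩
    rw [h'.ell_erase (image_subset_iff.2 hL') (mem_image_of_mem e hv), h.ell_erase hL hv, map_add,
      map_lg f hf (h.norm_arg_lt hL hv), arg, arg, h1, h2, hih _ Subset.rfl,
      hih _ (Nb_subset_erase _ _), map_mul, map_exp' f hf, map_sub, hw v hv]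

/-- Naturality under continuous maps of the algebra. -/
theorem Dob.map_ell {B : Type*} [NormedCommRing B] [NormedAlgebra ℝ B] (h : Dob R w L₀ b)
    (f : A →ₐ[ℝ] B) (hf : Continuous f) {L : Finset K} (hL : L ⊆ L₀) :
    f (ell R w L) = ell R (fun v => f (w v)) L := by
  induction L using Finset.strongInduction with
  | H L ih =>
    rcases L.eq_empty_or_nonempty with rfl | hne
    · simp
    have hv := hne.choose_spec
    have hih : ∀ M ⊆ L.erase hne.choose, f (ell R w M) = ell R (fun v => f (w v)) M := fun M hM =>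
      ih M (Finset.ssubset_of_subset_of_ssubset hM (erase_ssubset hv))
        (hM.trans ((erase_subset _ _).trans hL))
    rw [ell_of_nonempty w hne, ell_of_nonempty _ hne, map_add, map_lg f hf (h.norm_arg_lt hL hv),
      arg, arg, map_mul, map_exp' f hf, map_sub, hih _ Subset.rfl, hih _ (Nb_subset_erase _ _)]

/-- The logarithm minus its linear part is of second order. -/
theorem Dob.norm_sub_le₂ (h : Dob R w L₀ b) {L M : Finset K} (hL : L ⊆ L₀) (hM : M ⊆ L) :
    ‖ell R w L - ell R w M - ∑ u ∈ L \ M, w u‖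
      ≤ ∑ u ∈ L \ M, (b u ^ 2 + ‖w u‖ * (Real.exp (∑ u' ∈ Inc R u L₀, b u') - 1)) := by
  induction L using Finset.strongInduction with
  | H L ih =>
    by_cases hML : M = L
    · rw [hML]; simp
    obtain ⟨v, hv, hvM⟩ := exists_of_ssubset (hM.ssubset_of_ne hML)
    have h1 := ih _ (erase_ssubset hv) ((erase_subset _ _).trans hL)
      fun u hu => mem_erase.2 ⟨fun huv => hvM (huv ▸ hu), hM hu⟩
    have hb : ‖arg R w v L‖ ≤ b v := by
      linarith [h.norm_arg_le hL hv, Real.add_one_le_exp (-b v)]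
    have h2 : ‖lg (arg R w v L) - arg R w v L‖ ≤ b v ^ 2 :=
      (norm_lg_sub_le (by linarith [h.small v (hL hv)])).trans
        (pow_le_pow_left₀ (norm_nonneg _) hb 2)
    have h3 : ‖arg R w v L - w v‖ ≤ ‖w v‖ * (Real.exp (∑ u' ∈ Inc R v L₀, b u') - 1) := by
      rw [arg, ← mul_sub_one]
      refine (norm_mul_le _ _).trans (mul_le_mul_of_nonneg_left ?_ (norm_nonneg _))
      exact (norm_exp_sub_one_le _).trans
        (sub_le_sub_right (Real.exp_le_exp.2 (h.norm_D_le hL v)) 1)
    rw [← add_sum_erase _ _ (mem_sdiff.2 ⟨hv, hvM⟩), ← add_sum_erase _ _ (mem_sdiff.2 ⟨hv, hvM⟩),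
      ← erase_sdiff_comm]
    have h4 : ell R w L - ell R w M - (w v + ∑ u ∈ L.erase v \ M, w u) =
        ((lg (arg R w v L) - arg R w v L) + (arg R w v L - w v))
          + (ell R w (L.erase v) - ell R w M - ∑ u ∈ L.erase v \ M, w u) := by
      rw [h.ell_erase hL hv]; ring
    rw [h4]
    exact (norm_add_le _ _).trans (add_le_add ((norm_add_le _ _).trans (add_le_add h2 h3)) h1)

end

end Vale.Agent.P144Z.KP
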