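import Vale.Agent.P144Z.KP.Log

/-!
# The Moebius transform on finite sets and the weighted Moebius algebra
-/

namespace Vale.Agent.P144Z.KP

open Finset

noncomputable section

variable {S : Type*} [DecidableEq S]

section mu

variable {A : Type*} [CommRing A]

/-- The Moebius transform of a set function. -/
def mu (G : Finset S → A) (C : Finset S) : A := ∑ B ∈ C.powerset, (-1) ^ (C \ B).card * G B

@[simp] theorem mu_empty (G : Finset S → A) : mu G ∅ = G ∅ := by simp [mu]

theorem mu_congr {G G' : Finset S → A} {C : Finset S} (h : ∀ B ⊆ C, G B = G' B) :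
    mu G C = mu G' C :=
  sum_congr rfl fun B hB => by rw [h B (mem_powerset.1 hB)]

theorem mu_add (G G' : Finset S → A) (C : Finset S) :
    mu (fun B => G B + G' B) C = mu G C + mu G' C := by
  simp only [mu, mul_add, sum_add_distrib]

theorem mu_neg (G : Finset S → A) (C : Finset S) : mu (fun B => -G B) C = -mu G C := by
  simp only [mu, mul_neg, sum_neg_distrib]

theorem mu_sub (G G' : Finset S → A) (C : Finset S) :
    mu (fun B => G B - G' B) C = mu G C - mu G' C := by
  simp only [mu, mul_sub, sum_sub_distrib]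

theorem mu_zero (C : Finset S) : mu (fun _ => (0 : A)) C = 0 := by simp [mu]

theorem mu_smul [Algebra ℝ A] (r : ℝ) (G : Finset S → A) (C : Finset S) :
    mu (fun B => r • G B) C = r • mu G C := by
  simp only [mu, mul_smul_comm, smul_sum]

theorem mu_sum {ι : Type*} (s : Finset ι) (G : ι → Finset S → A) (C : Finset S) :
    mu (fun B => ∑ i ∈ s, G i B) C = ∑ i ∈ s, mu (G i) C := by
  simp only [mu, mul_sum]
  exact sum_comm

theorem map_mu {B F : Type*} [CommRing B] [FunLike F A B] [RingHomClass F A B] (f : F)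
    (G : Finset S → A) (C : Finset S) : f (mu G C) = mu (fun D => f (G D)) C := by
  simp [mu]

theorem mu_mem {σ : Type*} [SetLike σ A] [AddSubgroupClass σ A] (T : σ) {G : Finset S → A}
    {C : Finset S} (h : ∀ B ⊆ C, G B ∈ T) : mu G C ∈ T := by
  refine sum_mem fun B hB => ?_
  have h1 := h B (mem_powerset.1 hB)
  rcases neg_one_pow_eq_or A (C \ B).card with h2 | h2 <;> rw [h2]
  · rwa [one_mul]
  · rw [neg_one_mul]; exact neg_mem h1

theorem mu_insert (G : Finset S → A) {a : S} {C : Finset S} (ha : a ∉ C) :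
    mu G (insert a C) = mu (fun B => G (insert a B)) C - mu G C := by
  rw [mu, sum_powerset_insert ha, mu, mu, sub_eq_neg_add, ← sum_neg_distrib]
  congr 1
  · refine sum_congr rfl fun B hB => ?_
    have h1 : a ∉ B := fun h => ha (mem_powerset.1 hB h)
    rw [insert_sdiff_of_notMem _ h1, card_insert_of_notMem (fun h => ha (mem_sdiff.1 h).1),
      pow_succ]
    ring
  · refine sum_congr rfl fun B _ => ?_
    rw [insert_sdiff_insert, sdiff_insert_of_notMem ha]

/-- Moebius inversion. -/
theorem sum_mu (G : Finset S → A) (B : Finset S) : ∑ C ∈ B.powerset, mu G C = G B := by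
  induction B using Finset.induction_on generalizing G with
  | empty => simp
  | insert a B ha ih =>
    rw [sum_powerset_insert ha, ← ih fun B => G (insert a B), ← sum_add_distrib]
    refine sum_congr rfl fun C hC => ?_
    rw [mu_insert G fun h => ha (mem_powerset.1 hC h)]
    ring

/-- Uniqueness in the Moebius inversion. -/
theorem mu_eq_of_sum {G h : Finset S → A} {X : Finset S}
    (H : ∀ B ⊆ X, ∑ C ∈ B.powerset, h C = G B) : mu G X = h X := by
  induction X using Finset.strongInduction with
  | H X ih =>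
    have h1 := sum_mu G X
    rw [← H X Subset.rfl, ← add_sum_erase _ _ (mem_powerset_self X),
      ← add_sum_erase _ _ (mem_powerset_self X)] at h1
    rw [sum_congr rfl fun C hC => ih C ((mem_powerset.1 (mem_of_mem_erase hC)).ssubset_of_ne
      (ne_of_mem_erase hC)) fun B hB =>
        H B (hB.trans (mem_powerset.1 (mem_of_mem_erase hC)))] at h1
    exact add_right_cancel h1

theorem mu_mul (G G' : Finset S → A) {Λ C : Finset S} (hC : C ⊆ Λ) :
    mu (fun B => G B * G' B) C =
      ∑ p ∈ Λ.powerset ×ˢ Λ.powerset with p.1 ∪ p.2 = C, mu G p.1 * mu G' p.2 := by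
  refine mu_eq_of_sum (h := fun C =>
    ∑ p ∈ Λ.powerset ×ˢ Λ.powerset with p.1 ∪ p.2 = C, mu G p.1 * mu G' p.2) fun B hB => ?_
  rw [sum_fiberwise_eq_sum_filter, ← sum_mu G B, ← sum_mu G' B, sum_mul_sum, ← sum_product']
  refine sum_congr ?_ fun _ _ => rfl
  ext p
  simp only [mem_filter, mem_product, mem_powerset, union_subset_iff]
  exact ⟨fun h => h.2, fun h => ⟨⟨h.1.trans (hB.trans hC), h.2.trans (hB.trans hC)⟩, h⟩⟩

theorem mu_ite (D : Finset S) (x : A) (C : Finset S) :
    mu (fun B => if D ⊆ B then x else 0) C = if C = D then x else 0 := by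
  refine mu_eq_of_sum (h := fun C => if C = D then x else 0) fun B _ => ?_
  simp [sum_ite_eq']

/-- The transform of a function that ignores the points of `T`. -/
theorem mu_sdiff (G : Finset S → A) (T C : Finset S) :
    mu (fun B => G (B \ T)) C = if Disjoint C T then mu G C else 0 := by
  refine mu_eq_of_sum (h := fun C => if Disjoint C T then mu G C else 0) fun B _ => ?_
  rw [← sum_filter, ← sum_mu G (B \ T)]
  refine sum_congr ?_ fun _ _ => rfl
  ext D
  simp only [mem_filter, mem_powerset, subset_sdiff]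

/-- The transform vanishes on a set over which the function splits. -/
theorem mu_eq_zero_of_split {G : Finset S → A} {X X₁ X₂ : Finset S} (G₁ G₂ : Finset S → A)
    (h₁ : ¬ X ⊆ X₁) (h₂ : ¬ X ⊆ X₂) (H : ∀ B ⊆ X, G B = G₁ (B ∩ X₁) + G₂ (B ∩ X₂)) :
    mu G X = 0 := by
  have key : ∀ (G₁ : Finset S → A) (X₁ : Finset S), ¬ X ⊆ X₁ → mu (fun B => G₁ (B ∩ X₁)) X = 0 := by
    intro G₁ X₁ h₁
    have h3 := mu_sdiff G₁ (X \ X₁) X
    rw [if_neg (fun h => h₁ fun x hx => by
      by_contra hx'
      exact disjoint_left.1 h hx (mem_sdiff.2 ⟨hx, hx'⟩))] at h3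
    rw [← h3]
    refine mu_congr fun B hB => congrArg G₁ ?_
    ext x
    simp only [mem_inter, mem_sdiff]
    have := @hB x
    tauto
  rw [mu_congr H, mu_add, key G₁ X₁ h₁, key G₂ X₂ h₂, add_zero]

theorem mu_image {S' : Type*} [DecidableEq S'] (G : Finset S' → A) {e : S → S'} {C : Finset S}
    (he : Set.InjOn e C) : mu G (C.image e) = mu (fun B => G (B.image e)) C := by
  refine (mu_eq_of_sum (h := fun D => mu G (D.image e)) fun B hB => ?_).symm
  rw [← sum_mu G (B.image e), powerset_image, sum_image]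
  intro D hD D' hD' h
  replace h : D.image e = D'.image e := h
  have h1 : D ⊆ C := (mem_powerset.1 hD).trans hB
  have h2 : D' ⊆ C := (mem_powerset.1 hD').trans hB
  ext x
  constructor
  · intro hx
    obtain ⟨y, hy, hxy⟩ := mem_image.1 (h ▸ mem_image_of_mem e hx : e x ∈ D'.image e)
    exact he (h2 hy) (h1 hx) hxy ▸ hy
  · intro hx
    obtain ⟨y, hy, hxy⟩ := mem_image.1 (h.symm ▸ mem_image_of_mem e hx : e x ∈ D.image e)
    exact he (h1 hy) (h2 hx) hxy ▸ hy

end mu

/-- A weight on finite sets, submultiplicative under unions. -/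
structure Wt (S : Type*) [DecidableEq S] where
  /-- the weight -/
  toFun : Finset S → ℝ
  one_le : ∀ C, 1 ≤ toFun C
  union_le : ∀ C D, toFun (C ∪ D) ≤ toFun C * toFun D

/-- The product weight. -/
def Wt.prod (ω : S → ℝ) (hω : ∀ x, 1 ≤ ω x) : Wt S where
  toFun C := ∏ x ∈ C, ω x
  one_le C := one_le_prod fun x _ => hω x
  union_le C D := by
    rw [← prod_union_inter]
    exact le_mul_of_one_le_right (prod_nonneg fun x _ => zero_le_one.trans (hω x))
      (one_le_prod fun x _ => hω x)

/-- Functions on the subsets of `Λ`, normed by the weighted sum of the Moebius coefficients. -/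
def Mob (Λ : Finset S) (_ω : Wt S) (A : Type*) : Type _ := Λ.powerset → A

namespace Mob

variable {Λ : Finset S} {ω : Wt S} {A : Type*} [NormedCommRing A]

instance : CommRing (Mob Λ ω A) := inferInstanceAs (CommRing (Λ.powerset → A))

/-- The value on `B ∩ Λ`. -/
def val (F : Mob Λ ω A) (B : Finset S) : A := F ⟨B ∩ Λ, mem_powerset.2 inter_subset_right⟩

variable (Λ ω) in
/-- The restriction of a set function. -/
def mk (G : Finset S → A) : Mob Λ ω A := fun B => G B.1

omit [NormedCommRing A] in
theorem val_mk (G : Finset S → A) {B : Finset S} (hB : B ⊆ Λ) : (mk Λ ω G).val B = G B := by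
  simp only [val, mk, inter_eq_left.2 hB]

omit [NormedCommRing A] in
theorem ext_val {F G : Mob Λ ω A} (h : ∀ B ⊆ Λ, F.val B = G.val B) : F = G := by
  funext B
  have h1 := h B.1 (mem_powerset.1 B.2)
  simpa only [val, inter_eq_left.2 (mem_powerset.1 B.2)] using h1

theorem val_add (F G : Mob Λ ω A) : (F + G).val = fun B => F.val B + G.val B := rfl
theorem val_sub (F G : Mob Λ ω A) : (F - G).val = fun B => F.val B - G.val B := rfl
theorem val_neg (F : Mob Λ ω A) : (-F).val = fun B => -F.val B := rfl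
theorem val_mul (F G : Mob Λ ω A) : (F * G).val = fun B => F.val B * G.val B := rfl
theorem val_zero : (0 : Mob Λ ω A).val = fun _ => 0 := rfl

/-- The weighted norm. -/
def nrm (F : Mob Λ ω A) : ℝ := ∑ C ∈ Λ.powerset, ω.toFun C * ‖mu F.val C‖

theorem norm_val_le_nrm (F : Mob Λ ω A) (B : Finset S) : ‖F.val B‖ ≤ F.nrm := by
  have h1 : F.val B = F.val (B ∩ Λ) := by simp only [val, inter_assoc, inter_self]
  rw [h1, ← sum_mu F.val]
  refine (norm_sum_le _ _).trans (le_trans (sum_le_sum fun C _ =>
    le_mul_of_one_le_left (norm_nonneg _) (ω.one_le C)) ?_)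
  exact sum_le_sum_of_subset_of_nonneg (powerset_mono.2 inter_subset_right) fun C _ _ =>
    mul_nonneg (zero_le_one.trans (ω.one_le C)) (norm_nonneg _)

instance : NormedAddCommGroup (Mob Λ ω A) :=
  AddGroupNorm.toNormedAddCommGroup
    { toFun := nrm
      map_zero' := by simp [nrm, val_zero, mu_zero]
      add_le' := fun F G => by
        rw [nrm, nrm, nrm, ← sum_add_distrib]
        refine sum_le_sum fun C _ => ?_
        rw [val_add, mu_add, ← mul_add]
        exact mul_le_mul_of_nonneg_left (norm_add_le _ _) (zero_le_one.trans (ω.one_le C))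
      neg' := fun F => by simp only [nrm, val_neg, mu_neg, norm_neg]
      eq_zero_of_map_eq_zero' := fun F hF => ext_val fun B _ =>
        norm_le_zero_iff.1 ((norm_val_le_nrm F B).trans hF.le) }

theorem norm_def (F : Mob Λ ω A) : ‖F‖ = ∑ C ∈ Λ.powerset, ω.toFun C * ‖mu F.val C‖ := rfl

theorem norm_val_le (F : Mob Λ ω A) (B : Finset S) : ‖F.val B‖ ≤ ‖F‖ := norm_val_le_nrm F B

instance : NormedCommRing (Mob Λ ω A) :=
  { (inferInstance : CommRing (Mob Λ ω A)), (inferInstance : NormedAddCommGroup (Mob Λ ω A)) with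
    norm_mul_le := fun F G => by
      rw [norm_def, norm_def, norm_def, sum_mul_sum, ← sum_product',
        ← sum_fiberwise_of_maps_to (s := Λ.powerset ×ˢ Λ.powerset) (t := Λ.powerset)
          (g := fun p => p.1 ∪ p.2) (fun p hp => mem_powerset.2 (union_subset
            (mem_powerset.1 (mem_product.1 hp).1) (mem_powerset.1 (mem_product.1 hp).2)))]
      refine sum_le_sum fun C hC => ?_
      rw [val_mul, mu_mul _ _ (mem_powerset.1 hC)]
      refine (mul_le_mul_of_nonneg_left (norm_sum_le _ _)
        (zero_le_one.trans (ω.one_le C))).trans ?_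
      rw [mul_sum]
      refine sum_le_sum fun p hp => ?_
      rw [← (mem_filter.1 hp).2, mul_mul_mul_comm]
      exact mul_le_mul (ω.union_le _ _) (norm_mul_le _ _) (norm_nonneg _)
        (mul_nonneg (zero_le_one.trans (ω.one_le _)) (zero_le_one.trans (ω.one_le _))) }

variable [NormedAlgebra ℝ A]

instance : Algebra ℝ (Mob Λ ω A) := inferInstanceAs (Algebra ℝ (Λ.powerset → A))

theorem val_smul (r : ℝ) (F : Mob Λ ω A) : (r • F).val = fun B => r • F.val B := rfl

instance : NormedAlgebra ℝ (Mob Λ ω A) where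
  norm_smul_le r F := by
    rw [norm_def, norm_def, mul_sum]
    refine sum_le_sum fun C _ => ?_
    rw [val_smul, mu_smul, norm_smul, mul_left_comm]

variable (Λ ω) in
/-- Evaluation at a set. -/
def ev (B : Finset S) : Mob Λ ω A →ₐ[ℝ] A where
  toFun F := F.val B
  map_one' := rfl
  map_mul' _ _ := rfl
  map_zero' := rfl
  map_add' _ _ := rfl
  commutes' _ := rfl

theorem ev_apply (B : Finset S) (F : Mob Λ ω A) : ev Λ ω B F = F.val B := rfl

theorem continuous_ev (B : Finset S) : Continuous (ev Λ ω B : Mob Λ ω A → A) :=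
  AddMonoidHomClass.continuous_of_bound (ev Λ ω B) 1 fun F => by
    rw [one_mul]; exact norm_val_le F B

instance [CompleteSpace A] : CompleteSpace (Mob Λ ω A) := by
  let e : Mob Λ ω A ≃ₗ[ℝ] (Λ.powerset → A) := LinearEquiv.refl ℝ (Λ.powerset → A)
  have h1 : ∀ F, ‖e F‖ ≤ 1 * ‖F‖ := fun F => by
    rw [one_mul, pi_norm_le_iff_of_nonneg (norm_nonneg _)]
    intro B
    have h := norm_val_le F B.1
    simp only [val, inter_eq_left.2 (mem_powerset.1 B.2)] at h
    exact h
  have h2 : ∀ G, ‖e.symm G‖ ≤
      (∑ C ∈ Λ.powerset, ω.toFun C * C.powerset.card) * ‖G‖ := fun G => by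
    rw [norm_def, sum_mul]
    refine sum_le_sum fun C _ => ?_
    rw [mul_assoc]
    refine mul_le_mul_of_nonneg_left ?_ (zero_le_one.trans (ω.one_le C))
    refine (norm_sum_le _ _).trans ?_
    rw [← nsmul_eq_mul]
    refine sum_le_card_nsmul _ _ _ fun B _ => ?_
    have h3 : ‖(e.symm G).val B‖ ≤ ‖G‖ := norm_le_pi_norm G _
    rcases neg_one_pow_eq_or A (C \ B).card with h5 | h5 <;> rw [h5]
    · rw [one_mul]; exact h3
    · rw [neg_one_mul, norm_neg]; exact h3
  exact ((e.toContinuousLinearEquivOfBounds _ _ h1 h2).isUniformEmbedding.completeSpace_congr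
    e.surjective).2 inferInstance

omit [NormedAlgebra ℝ A] in
theorem norm_mk (G : Finset S → A) :
    ‖mk Λ ω G‖ = ∑ C ∈ Λ.powerset, ω.toFun C * ‖mu G C‖ := by
  rw [norm_def]
  refine sum_congr rfl fun C hC => ?_
  rw [mu_congr fun B hB => val_mk G (hB.trans (mem_powerset.1 hC))]

omit [NormedAlgebra ℝ A] in
theorem norm_mk_ite_le (D : Finset S) (x : A) :
    ‖mk Λ ω fun B => if D ⊆ B then x else 0‖ ≤ ω.toFun D * ‖x‖ := by
  rw [norm_mk]
  have h1 : ∀ C ∈ Λ.powerset, ω.toFun C * ‖mu (fun B => if D ⊆ B then x else 0) C‖ =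
      if C = D then ω.toFun D * ‖x‖ else 0 := by
    intro C _
    rw [mu_ite]
    split_ifs with h
    · rw [h]
    · simp
  rw [sum_congr rfl h1, sum_ite_eq']
  split_ifs
  · exact le_rfl
  · exact mul_nonneg (zero_le_one.trans (ω.one_le D)) (norm_nonneg _)

end Mob

end

end Vale.Agent.P144Z.KP
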