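import Vale.Agent.P144Z.KP.Log
import Mathlib.Analysis.Normed.Module.FiniteDimension

/-!
# A subalgebra with a norm of its own, as a Banach algebra
-/

namespace Vale.Agent.P144Z.KP

noncomputable section

/-- A subalgebra with an algebra norm. -/
structure AlgNorm (𝔸 : Type*) [CommRing 𝔸] [Algebra ℝ 𝔸] where
  /-- the subalgebra -/
  R : Subalgebra ℝ 𝔸
  /-- the norm -/
  N : 𝔸 → ℝ
  add_le : ∀ F ∈ R, ∀ G ∈ R, N (F + G) ≤ N F + N G
  smul_eq : ∀ c : ℝ, ∀ F ∈ R, N (c • F) = |c| * N F
  mul_le : ∀ F ∈ R, ∀ G ∈ R, N (F * G) ≤ N F * N G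
  eq_zero : ∀ F ∈ R, N F = 0 → F = 0

namespace AlgNorm

variable {𝔸 : Type*} [CommRing 𝔸] [Algebra ℝ 𝔸] (n : AlgNorm 𝔸)

/-- The subalgebra, as a type that carries the norm. -/
def T : Type _ := n.R

instance : CommRing n.T := inferInstanceAs (CommRing n.R)

instance : Algebra ℝ n.T := inferInstanceAs (Algebra ℝ n.R)

/-- The inclusion. -/
def val : n.T →ₐ[ℝ] 𝔸 := n.R.val

/-- An element of the subalgebra. -/
def elt (F : 𝔸) (hF : F ∈ n.R) : n.T := (⟨F, hF⟩ : n.R)

@[simp] theorem val_elt (F : 𝔸) (hF : F ∈ n.R) : n.val (n.elt F hF) = F := rfl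

theorem val_mem (x : n.T) : n.val x ∈ n.R := x.2

theorem val_injective : Function.Injective n.val := Subtype.val_injective

instance : NormedAddCommGroup n.T :=
  AddGroupNorm.toNormedAddCommGroup
    { toFun := fun x => n.N (n.val x)
      map_zero' := by
        have h := n.smul_eq 0 0 (zero_mem _)
        simpa using h
      add_le' := fun x y => by
        rw [map_add]
        exact n.add_le _ (n.val_mem x) _ (n.val_mem y)
      neg' := fun x => by
        have h := n.smul_eq (-1) _ (n.val_mem x)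
        simpa using h
      eq_zero_of_map_eq_zero' := fun x hx =>
        n.val_injective (by rw [map_zero]; exact n.eq_zero _ (n.val_mem x) hx) }

theorem norm_def (x : n.T) : ‖x‖ = n.N (n.val x) := rfl

instance : NormedCommRing n.T :=
  { (inferInstance : CommRing n.T), (inferInstance : NormedAddCommGroup n.T) with
    norm_mul_le := fun x y => by
      rw [norm_def, norm_def, norm_def, map_mul]
      exact n.mul_le _ (n.val_mem x) _ (n.val_mem y) }

instance : NormedAlgebra ℝ n.T where
  norm_smul_le r x := by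
    rw [norm_def, norm_def, map_smul, n.smul_eq r _ (n.val_mem x), Real.norm_eq_abs]

instance [FiniteDimensional ℝ 𝔸] : FiniteDimensional ℝ n.T :=
  Module.Finite.of_injective n.val.toLinearMap n.val_injective

instance [FiniteDimensional ℝ 𝔸] : CompleteSpace n.T := FiniteDimensional.complete ℝ n.T

theorem continuous_algHom [FiniteDimensional ℝ 𝔸] {B : Type*} [NormedCommRing B]
    [NormedAlgebra ℝ B] (f : n.T →ₐ[ℝ] B) : Continuous f :=
  f.toLinearMap.continuous_of_finiteDimensional

theorem map_exp [FiniteDimensional ℝ 𝔸] {B : Type*} [NormedCommRing B] [NormedAlgebra ℝ B]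
    (f : n.T →ₐ[ℝ] B) (x : n.T) : f (NormedSpace.exp x) = NormedSpace.exp (f x) :=
  map_exp' f (n.continuous_algHom f) x

end AlgNorm

end

end Vale.Agent.P144Z.KP
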